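import Vale.Agent.P014T.St
import Vale.Agent.P014T.Rp.Per

/-! # P014T, block KTI: the real period, the coefficients and the short model -/

set_option autoImplicit false
set_option linter.all false

noncomputable section

namespace Vale.Agent.P014T.La.Pe

open P027H Top
open P004M.TE (al)
open Lc (Wq)

variable {Λ Λ' : Submodule ℤ ℂ} {A B A' B' : ℤ}

theorem sI_Δ (A B : ℤ) : (sI A B).Δ = -16 * (4 * A ^ 3 + 27 * B ^ 2) := by
  simp only [sI, WeierstrassCurve.Δ, WeierstrassCurve.b₂, WeierstrassCurve.b₄, WeierstrassCurve.b₆,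
    WeierstrassCurve.b₈]
  ring

theorem sI_ne (h : El A B) : (sI A B).Δ ≠ 0 := by
  rw [sI_Δ]; exact mul_ne_zero (by decide) h

theorem wq_sI (A B : ℤ) : Wq (sI A B) = ⟨0, 0, 0, A, B⟩ := by
  ext <;> simp [Wq, sI]

theorem md_sI (A B : ℤ) : Sm.Md (Wq (sI A B)) A B 1 0 0 0 := by
  rw [wq_sI]; exact Vc.Ch.refl _

/-- `w0` generates the real periods -/
theorem per (h : IsLat Λ) (h2 : g2 Λ = -4 * A) (h3 : g3 Λ = -4 * B) :
    0 < w0 A B ∧ (w0 A B : ℂ) ∈ Λ ∧ ∀ x : ℝ, (x : ℂ) ∈ Λ → ∃ n : ℤ, x = n * w0 A B := by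
  obtain ⟨w, v, w1, v0, m, e⟩ := Rp.rp (Wq (sI A B)) h one_pos
    (by rw [h2, wq_sI]; simp [WeierstrassCurve.c₄, WeierstrassCurve.b₂, WeierstrassCurve.b₄]; ring)
    (by
      rw [h3, wq_sI]
      simp [WeierstrassCurve.c₆, WeierstrassCurve.b₂, WeierstrassCurve.b₄, WeierstrassCurve.b₆]
      ring)
  have d : 0 < (Wq (sI A B)).Δ ↔ 4 * A ^ 3 + 27 * B ^ 2 < 0 := by
    rw [Wq, WeierstrassCurve.map_Δ, sI_Δ, eq_intCast, Int.cast_pos]
    omega
  obtain rfl : w = w0 A B := by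
    rw [w0, e, Bt.p0]
    simp only [d]
    split_ifs <;> simp
  refine ⟨w1, (m _).2 ⟨1, 0, by simp⟩, fun x hx => ?_⟩
  obtain ⟨a, b, k⟩ := (m _).1 hx
  have i := congrArg Complex.im k
  simp [v0.ne'] at i
  subst i
  exact ⟨a, by exact_mod_cast (by simpa using k : (x : ℂ) = a * w0 A B)⟩

theorem per_iso (h : IsLat Λ) (h2 : g2 Λ = -4 * A) (h3 : g3 Λ = -4 * B) (h' : IsLat Λ')
    (h2' : g2 Λ' = -4 * A') (h3' : g3 Λ' = -4 * B') {c : ℚ} (hle : ∀ z ∈ Λ', c * z ∈ Λ) :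
    ∃ n : ℤ, c * w0 A' B' = n * w0 A B :=
  (per h h2 h3).2.2 _ (by push_cast; exact hle _ (per h' h2' h3').2.1)

/-- the coefficients agree at the integers prime to a large set -/
theorem al_eq {S : Finset ℕ} (p : Pm S)
    (b : ∀ l : ℕ, l.Prime → (l : ℤ) ∣ 2 * (4 * A ^ 3 + 27 * B ^ 2) → l ∈ S)
    (b' : ∀ l : ℕ, l.Prime → (l : ℤ) ∣ 2 * (4 * A' ^ 3 + 27 * B' ^ 2) → l ∈ S)
    (e : ∀ l : ℕ, l.Prime → l ∉ S → al A B l = al A' B' l) {n : ℕ}
    (c : n.Coprime (∏ q ∈ S, q)) : al A B n = al A' B' n := by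
  have m (A B : ℤ) := Lf.lf_mul (P004N.H169.LF.sw (A : ℚ) (B : ℚ))
  rw [Lk.al_eq]
  refine (Lk.mult (a := al A' B') (Finset.prod_ne_zero_iff.2 fun q k => (p q k).ne_zero)
    (by rw [Lk.al_eq]; exact ArithmeticFunction.map_zero) (by rw [Lk.al_eq]; exact (m _ _).1)
    (fun x y k => by simp only [Lk.al_eq]; exact (m _ _).2 k) fun l hl k j => ?_).2 n c
  have s : l ∉ S := fun s => k (Finset.dvd_prod_of_mem _ s)
  rw [← Lk.al_eq]
  exact (Lk.pw (u := al A B) (v := al A' B') (by rw [Lk.al_eq]; exact (m _ _).1)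
    (by rw [Lk.al_eq]; exact (m _ _).1) (e l hl s) (Lk.al_rec hl fun d => s (b l hl d))
    (Lk.al_rec hl fun d => s (b' l hl d)) j).1

theorem lw_eq {S : Finset ℕ} (e : ∀ n : ℕ, n.Coprime (∏ q ∈ S, q) → al A B n = al A' B' n)
    (f : ℕ → ℂ) : Rk.Lw (al A B) (cS S f) = Rk.Lw (al A' B') (cS S f) := by
  unfold Rk.Lw
  congr 2
  funext t
  refine tsum_congr fun n => ?_
  rw [cS]
  split_ifs with c
  · rw [e n c]
  · simp

end Vale.Agent.P014T.La.Pe
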