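import Vale.Agent.P014T.Ht.Iso
import Vale.Agent.P014T.Bt.Ac

/-!
# P014T, block LAT: the real line of the Tate module and the real period
-/

set_option autoImplicit false
set_option linter.all false

open scoped Classical ComplexConjugate

noncomputable section

namespace Vale.Agent.P014T.La

open P027H P004K P014T.Ig P014T.Ig.Hm P014T.Hi P027M.K
open P027M.M (io)
open P004M.TE (Pt Tm ga rho cp_rho ga_mul ga_one ga_some pa pa_inj)
open Vale.Agent.P022 (Qb GQ IsConj)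
open Bt (Gp)

theorem ex_io (f : Qb →+* ℂ) : ∃ s : GQ, ∀ x, io (s x) = f x := by
  have : Algebra.IsAlgebraic ℚ Qb := AlgebraicClosure.isAlgebraic ℚ
  have : IsAlgClosure ℚ Qb := ⟨inferInstance, inferInstance⟩
  let _ : Algebra Qb ℂ := (io : Qb →+* ℂ).toAlgebra
  have := IsScalarTower.of_algebraMap_eq (R := ℚ) (S := Qb) (A := ℂ) fun x => (io.commutes x).symm
  exact ⟨f.toRatAlgHom.restrictNormal' Qb, f.toRatAlgHom.restrictNormal_commutes Qb⟩

theorem unit_of {Y : Type} [AddCommGroup Y] {a : ℤ_[2]} {x : TM 2 Y} (h : TM.cp 1 (a • x) ≠ 0) :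
    IsUnit a := by_contra fun n => by
  obtain ⟨b, rfl⟩ := (PadicInt.norm_lt_one_iff_dvd a).1 (PadicInt.mem_nonunits.1 n)
  exact h (TM.cp_eq_zero_iff.2 ⟨b • x, by rw [pow_one, mul_smul]⟩)

/-- `w` generates the real periods -/
def Rg (Λ : Submodule ℤ ℂ) (w : ℝ) : Prop :=
  0 < w ∧ (w : ℂ) ∈ Λ ∧ ∀ x : ℝ, (x : ℂ) ∈ Λ → ∃ m : ℤ, x = m * w

variable {Λ Λ' : Submodule ℤ ℂ} {A B A' B' : ℤ} {c : ℚ} {φ : Pt A' B' →+ Pt A B} {w w' : ℝ}
  {k s : GQ} {f : Qb →+* ℂ} (h : IsLat Λ) (h2 : g2 Λ = -4 * A) (h3 : g3 Λ = -4 * B)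
include h h2 h3

theorem un_real (hk : ∀ x, f (k x) = conj (f x)) (hs : ∀ x, io (s x) = f x) {x : ℝ} {y : Pt A B}
    (u : Un Λ x (ga s y)) : ga k y = y := by
  have e : cjL Λ = Λ := h.cj.ext_g h (by rw [g2_cj, h2]; simp [map_ofNat])
    (by rw [g3_cj, h3]; simp [map_ofNat])
  rcases y with _ | ⟨a, b, n⟩
  · exact map_zero _
  rw [ga_some] at u ⊢
  obtain ⟨_, _, _, ⟨⟩, p, q⟩ := u.2 fun m => WeierstrassCurve.Affine.Point.some_ne_zero _ (u.1 m)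
  have e1 := wp_cj Λ x
  have e2 := dwp_cj Λ x
  rw [e, Complex.conj_ofReal] at e1 e2
  congr 1
  · exact f.injective (by rw [hk, ← hs, p, ← e1])
  · exact f.injective (by rw [hk, ← hs, q, map_div₀, ← e2, map_ofNat])

theorem ex_line (hk : ∀ x, f (k x) = conj (f x)) (hs : ∀ x, io (s x) = f x) (r : Rg Λ w) :
    ∃ G : Tm A B, Gp A B k G ∧ ∀ j : ℕ, Un Λ (w / 2 ^ j) (ga s (TM.cp j G)) := by
  have m := r.2.1
  choose y hy using fun j : ℕ => ex_tors h h2 h3 (m := 2 ^ j) (by positivity) (z := w / 2 ^ j)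
    (mem_of_eq m (by push_cast; field_simp))
  let x : Tm A B := TM.mk y ((hy 0).1.1 (by simpa using m)) fun j =>
    ((un A B Λ h h2 h3).2.1 _ _ _ _ (un_smul h h2 h3 (hy (j + 1)).1 2) (hy j).1).2.2
      (mem_of_eq (zero_mem _) (by push_cast; field_simp; ring))
  have e : ∀ j, ga s (TM.cp j (rho _ _ s⁻¹ x)) = y j := fun j => by
    rw [cp_rho, ← ga_mul, mul_inv_cancel, ga_one]; rfl
  have u : ∀ j : ℕ, Un Λ (w / 2 ^ j) (ga s (TM.cp j (rho _ _ s⁻¹ x))) := fun j => e j ▸ (hy j).1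
  refine ⟨_, ⟨TM.ext fun j => un_real h h2 h3 hk hs (x := w / 2 ^ j) (by push_cast; exact u j),
    fun z => ?_⟩, u⟩
  have := u 1
  rw [z, map_zero] at this
  obtain ⟨n, a⟩ := r.2.2 (w / 2) (mem_of_eq (un_mem this) (by push_cast; ring))
  have : (2 * n : ℤ) = 1 := by
    exact_mod_cast mul_right_cancel₀ r.1.ne' (by linarith : (2 * n : ℝ) * w = 1 * w)
  omega

/-- **the isogeny on the real lines** -/
theorem h5 (h' : IsLat Λ') (h2' : g2 Λ' = -4 * A') (h3' : g3 Λ' = -4 * B') (i : Iso c Λ' Λ φ)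
    (e : ∀ g y, φ (ga g y) = ga g (φ y)) (r : Rg Λ w) (r' : Rg Λ' w') (hk : IsConj k)
    {g' : Tm A' B'} {g : Tm A B} (G' : Gp A' B' k g') (G : Gp A B k g) {n : ℤ}
    (hn : c * w' = n * w) :
    ∃ u : ℤ_[2]ˣ, ∀ j, φ (TM.cp j g') = TM.cp j ((u * n : ℤ_[2]) • g) := by
  obtain ⟨f, hf⟩ := id hk
  obtain ⟨s, hs⟩ := ex_io f
  obtain ⟨x, a, b⟩ := ex_line h h2 h3 hf hs r
  obtain ⟨x', a', b'⟩ := ex_line h' h2' h3' hf hs r'
  obtain ⟨ex, -, -, v⟩ := Hg.un_iff h h2 h3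
  have t : TM.map 2 φ x' = (n : ℤ_[2]) • x := TM.ext fun j => by
    have p := (v _ _).1 (i _ _ (b' j))
    rw [show (c : ℂ) * (w' / 2 ^ j) = n • (w / 2 ^ j) by
      rw [zsmul_eq_mul, ← mul_div_assoc, ← mul_div_assoc]
      exact congrArg (· / _) (by exact_mod_cast hn), map_zsmul, (v _ _).1 (b j), ← map_zsmul,
      ← map_zsmul, e] at p
    rw [Int.cast_smul_eq_zsmul, map_zsmul, ← ga_one (n • _), ← inv_mul_cancel s, ga_mul,
      pa_inj _ p, ← ga_mul, inv_mul_cancel, ga_one]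
    rfl
  obtain ⟨p, rfl⟩ := a'.line (hD_of h' h2' h3') hk G'.1
  obtain ⟨q, rfl⟩ := G.line (hD_of h h2 h3) hk a.1
  refine ⟨(unit_of G'.2).unit * (unit_of a.2).unit, fun j => ?_⟩
  rw [show φ (TM.cp j (p • x')) = TM.cp j (TM.map 2 φ (p • x')) from rfl, map_smul, t, smul_smul,
    smul_smul, Units.val_mul, IsUnit.unit_spec, IsUnit.unit_spec, mul_right_comm]

end Vale.Agent.P014T.La
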