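import Vale.Agent.P014T.Ht.Iso
import Vale.Agent.P014T.Lc.Jx
import Vale.Agent.P004F.Ix.Idx

/-!
# P014T, block LAT: the logarithm at two and isogenies
-/

set_option autoImplicit false
set_option linter.all false

open scoped Classical NNReal
open Filter Topology NumberField P179W

noncomputable section

namespace Vale.Agent.P014T.La

open P027H P004K P004K.Gm P014T.Ig P014T.Ig.Hm P014T.Hi P014T.Lc
open P027M.M (io)
open P004M.TE (Cv Pt ga pa pa_inj xp_pa)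
open Vale.Agent.P022 (Qb GQ)
open P004H.H666 (xp crv)
open Vale.Agent.P022D.W (dec inP_le_dec phi_mem exists_phi)
open Wm (Fx)
open Ah (Ind am)
open P004S.Ga (K)

section val

variable {F Γ : Type} [Field F] [LinearOrderedCommGroupWithZero Γ] {v : Valuation F Γ} {a b : F}
  (hc : CoeffIn (crv a b) {z | v z ≤ 1}) {Y T : (crv a b).Point}

theorem ker_iff (n : Y ≠ 0) : KerV v Y ↔ 1 < v (xp Y) := by
  rcases Y with _ | ⟨x, y, h⟩
  · exact absurd rfl n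
  · exact not_le

include hc

theorem xz (k : KerV v Y) (n : Y ≠ 0) : v (xp Y) * v (zf Y) ^ 2 = 1 := by
  rcases Y with _ | ⟨x, y, h⟩
  · exact absurd rfl n
  · exact (bas hc h.1 (not_le.1 k)).2.2.1

theorem x_lt (k : KerV v Y) (n : Y ≠ 0) (t : KerV v T → v (zf Y) < v (zf T)) :
    v (xp (Y - T)) < v (xp Y) := by
  by_cases c : KerV v T
  · have s : KerV v (Y - T) := (E1 hc).sub_mem k c
    have e := zf_sub hc k c
    rw [v.map_sub_eq_of_lt_right (t c)] at e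
    have n' : Y - T ≠ 0 := fun z => (t c).ne (by rw [sub_eq_zero.1 z])
    refine not_le.1 fun l => (pow_lt_pow_left₀ (t c) zero_le' two_ne_zero).not_ge ?_
    have p := zero_lt_one.trans ((ker_iff n).1 k)
    refine le_of_mul_le_mul_left ?_ p
    rw [xz hc k n, ← xz hc s n', ← e]
    exact mul_le_mul_left l _
  · have s : ¬ KerV v (Y - T) := fun s => c (sub_sub_cancel Y T ▸ (E1 hc).sub_mem k s :)
    exact (not_lt.1 fun l => s ((ker_iff fun z => s (by rw [z]; trivial)).2 l)).trans_lt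
      ((ker_iff n).1 k)

end val

theorem ex_lam {Y : Type} [AddCommGroup Y] {l l' : Y →+ K} {c : K} (h : ∀ y, ‖l y‖ = ‖c‖ * ‖l' y‖) :
    ∃ a : K, ‖a‖ = ‖c‖ ∧ ∀ y, l y = a * l' y := by
  by_cases e : ∀ y, l' y = 0
  · exact ⟨c, rfl, fun y => norm_eq_zero.1 (by rw [h, e, norm_zero, mul_zero]) |>.trans
      (by rw [e, mul_zero])⟩
  obtain ⟨x, x0⟩ := not_forall.1 e
  have n : ‖l x / l' x‖ = ‖c‖ := by rw [norm_div, h, mul_div_cancel_right₀ _ (norm_ne_zero_iff.2 x0)]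
  refine ⟨_, n, fun y => sub_eq_zero.1 (norm_le_zero_iff.1 (le_of_forall_pos_le_add fun ε p => ?_))⟩
  obtain ⟨r, k⟩ := Padic.rat_dense 2 (l' y / l' x) (ε := ε / (2 * ‖c‖ * ‖l' x‖ + 1)) (by positivity)
  have d0 : (r.den : K) ≠ 0 := Nat.cast_ne_zero.2 r.den_nz
  have e1 : l' (r.den • y - r.num • x) = r.den * (l' x * (l' y / l' x - r)) := by
    rw [map_sub, map_nsmul, map_zsmul, nsmul_eq_mul, zsmul_eq_mul, Rat.cast_def]
    field_simp
  have e2 : r.den * (l y - l x / l' x * l' y) =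
      l (r.den • y - r.num • x) - l x / l' x * l' (r.den • y - r.num • x) := by
    simp only [map_sub, map_nsmul, map_zsmul, nsmul_eq_mul, zsmul_eq_mul]
    field_simp
    ring
  have := norm_sub_le (l (r.den • y - r.num • x)) (l x / l' x * l' (r.den • y - r.num • x))
  rw [← e2, h, norm_mul, norm_mul, n, e1, norm_mul, norm_mul] at this
  rw [lt_div_iff₀ (by positivity)] at k
  refine le_of_mul_le_mul_left (this.trans ?_) (norm_pos_iff.2 d0)
  rw [zero_add, ← two_mul, mul_left_comm ‖c‖, mul_left_comm]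
  refine mul_le_mul_of_nonneg_left ?_ (norm_nonneg _)
  linarith [norm_nonneg (l' y / l' x - r)]

variable {Λ Λ' : Submodule ℤ ℂ} {A B A' B' : ℤ} {c : ℚ} {φ : Pt A' B' →+ Pt A B}
  (h : IsLat Λ) (h2 : g2 Λ = -4 * A) (h3 : g3 Λ = -4 * B)
  (h' : IsLat Λ') (h2' : g2 Λ' = -4 * A') (h3' : g3 Λ' = -4 * B') (hc : c ≠ 0) (i : Iso c Λ' Λ φ)
include h h2 h3 h' h2' h3' hc i

/-- **the formula of Velu** -/
theorem velu : ∃ (ι : Type) (_ : Fintype ι) (T : ι → Pt A' B') (κ : Qb), Function.Injective T ∧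
    (∀ y, φ y = 0 → ∃ j, T j = y) ∧
      ∀ y, φ y ≠ 0 → (c : Qb) ^ 2 * xp (φ y) = ∑ j, xp (y - T j) + κ := by
  have c0 : (c : ℂ) ≠ 0 := Rat.cast_ne_zero.2 hc
  obtain ⟨ι, _, r, T, e, R, k⟩ := ex_ker h h2 h3 h' h2' h3' hc i
  obtain ⟨u1, u2, -⟩ := un A' B' Λ' h' h2' h3'
  refine ⟨ι, inferInstance, T, Function.invFun io (-∑ j, wp Λ' (r j)),
    fun j j' a => R.inj _ _ ((u2 _ _ _ _ (k j).1 (k j').1).2.1 a), fun y m => ?_, fun y n => ?_⟩
  · obtain ⟨z, u⟩ := u1 y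
    obtain ⟨j, a⟩ := R.ex z ((mem_inv c0).2 (un_mem (A := A) (B := B) (m ▸ i _ _ u)))
    exact ⟨j, ((u2 _ _ _ _ u (k j).1).2.2 a).symm⟩
  obtain ⟨z, u⟩ := u1 y
  have z0 : c * z ∉ Λ := fun a => n ((i _ _ u).1 a)
  have e1 : io ((c : Qb) ^ 2 * xp (φ y) - ∑ j, xp (y - T j)) = -∑ j, wp Λ' (r j) := by
    rw [map_sub, map_mul, map_sum, un_xp (i _ _ u) z0, (hom_inv c0 Λ).wp,
      R.wp h' ((hom_inv c0 Λ).symm.isLat h), Finset.sum_sub_distrib,
      Finset.sum_congr rfl fun j _ => un_xp (un_sub h' h2' h3' u (k j).1) fun a => z0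
        ((mem_inv c0).1 (mem_of_eq (add_mem (R.le a) (R.mem j)) (sub_add_cancel _ _).symm)),
      map_pow, map_ratCast]
    field_simp
    ring
  rw [← e1, Function.leftInverse_invFun (f := io) (io : Qb →+* ℂ).injective, add_sub_cancel]

/-- **the logarithm is multiplied by `c`** -/
theorem lg_iso {P : Ideal (𝓞 Qb)} {ι : Qb →+* ℂ_[2]} (hι : Ind ι P) {lg : Fx A B (dec P) →+ K}
    {lg' : Fx A' B' (dec P) →+ K} (k : Lk ι lg) (k' : Lk ι lg') (y' : Fx A' B' (dec P))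
    (y : Fx A B (dec P)) (e : y.1 = φ y'.1) : ‖lg y‖ = ‖(c : K)‖ * ‖lg' y'‖ := by
  obtain ⟨J, _, T, κ, iT, sT, V⟩ := velu h h2 h3 h' h2' h3' hc i
  obtain ⟨L, hL⟩ := ex_lgs A B
  obtain ⟨L', hL'⟩ := ex_lgs A' B'
  let p' : Pt A' B' →+ _ := pa ι.toRatAlgHom
  have s := tendsto_pow_atTop_nhds_zero_of_lt_one (norm_nonneg (2 : K)) Padic.norm_p_lt_one
  have t0 : 0 < ‖((2 : ℕ) : ℂ_[2])‖ := norm_pos_iff.2 (Nat.cast_ne_zero.2 two_ne_zero)
  obtain ⟨n, n1, n2, n3, n4⟩ := ((eventually_all.2 fun j => show ∀ᶠ n : ℕ in atTop, T j ≠ 0 →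
      KerV (nv ℂ_[2]) (p' (T j)) → ‖(2 : K)‖ ^ n < ‖zf (p' (T j))‖ by
    by_cases a : T j ≠ 0 ∧ KerV (nv ℂ_[2]) (p' (T j))
    · exact (s.eventually_lt_const (norm_pos_iff.2 fun z => a.1 (pa_inj _
        ((zf_eq_zero (cfs _ A' B') a.2 z).trans (map_zero _).symm)))).mono fun _ l _ _ => l
    · exact .of_forall fun _ a1 a2 => absurd ⟨a1, a2⟩ a).and ((s.eventually_lt_const t0).and
      ((((s.const_mul ‖(c : ℂ_[2])‖).eventually_lt_const (by rwa [mul_zero]))).and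
        (((s.pow 2).const_mul ‖ι κ‖).eventually_lt_const (by simp : _ < (1 : ℝ)))))).exists
  have o := hι.ov
  obtain ⟨f, hf⟩ := exists_phi o.1 o.2.1 o.2.2
  obtain ⟨N, N0, hN⟩ := P004F.Ix.idx A' B' (hD_of h' h2' h3') P f o hf (2 ^ n) 1 (by positivity)
    one_ne_zero
  obtain ⟨a1, a2⟩ := (fk_nrm hι (by positivity) _).1 (hN y' (fun g hg => y'.2 g (inP_le_dec hg))
    (y'.2 _ (pow_mem (phi_mem o.1 o.2.1 hf) 1)))
  rw [k1_iff hι] at a1
  rw [← zf_pa, Nat.cast_pow, norm_pow, Nat.cast_ofNat] at a2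
  refine mul_left_cancel₀ (norm_ne_zero_iff.2 (Nat.cast_ne_zero.2 N0 : (N : K) ≠ 0)) ?_
  rw [mul_left_comm, ← norm_mul, ← norm_mul, ← nsmul_eq_mul, ← nsmul_eq_mul, ← map_nsmul,
    ← map_nsmul, ← Ah.nrm_am, ← Ah.nrm_am, ← Ah.nrm_am (lg' _), k L hL, k' L' hL', map_ratCast,
    AddSubgroup.coe_nsmul, AddSubgroup.coe_nsmul, e, ← map_nsmul φ]
  generalize N • y'.1 = Y at a1 a2
  by_cases Y0 : Y = 0
  · simp [Y0]
  have Y1 : p' Y ≠ 0 := fun z => Y0 (pa_inj _ (z.trans (map_zero _).symm))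
  have F0 : φ Y ≠ 0 := fun z => by
    obtain ⟨j, rfl⟩ := sT Y z
    exact (n1 j Y0 a1).not_ge a2
  have F1 : pa ι.toRatAlgHom (φ Y) ≠ 0 := fun z => F0 (pa_inj _ (z.trans (map_zero _).symm))
  obtain ⟨j, hj⟩ := sT 0 (map_zero φ)
  have x1 := xz (cfs _ A' B') a1 Y1
  have x0 := zero_lt_one.trans ((ker_iff Y1).1 a1)
  have w : nv ℂ_[2] c ^ 2 * nv ℂ_[2] (xp (pa ι.toRatAlgHom (φ Y))) = nv ℂ_[2] (xp (p' Y)) := by
    have := congrArg ι.toRatAlgHom (V Y F0)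
    rw [map_mul, map_add, map_sum, ← xp_pa, map_pow, map_ratCast, ← Finset.add_sum_erase _ _
      (Finset.mem_univ j), hj, sub_zero, ← xp_pa, add_assoc] at this
    rw [← map_pow, ← map_mul, this]
    refine Valuation.map_add_eq_of_lt_left _ (Valuation.map_add_lt _ (Valuation.map_sum_lt _ x0.ne'
      fun l m => ?_) (lt_of_mul_lt_mul_right (a := nv ℂ_[2] (zf (p' Y)) ^ 2) ?_ zero_le'))
    · rw [← xp_pa, map_sub]
      exact x_lt (cfs _ A' B') a1 Y1 fun q => a2.trans_lt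
        (n1 l (fun z => (Finset.mem_erase.1 m).1 (iT (z.trans hj.symm))) q)
    · rw [x1]
      exact (mul_le_mul_of_nonneg_left (pow_le_pow_left₀ (norm_nonneg _) a2 2)
        (norm_nonneg _)).trans_lt n4
  have w1 : nv ℂ_[2] (xp (pa ι.toRatAlgHom (φ Y))) * (nv ℂ_[2] c * nv ℂ_[2] (zf (p' Y))) ^ 2 = 1 := by
    rw [← x1, ← w]; ring
  have l : nv ℂ_[2] c * nv ℂ_[2] (zf (p' Y)) < nv ℂ_[2] (2 : ℕ) :=
    (mul_le_mul_of_nonneg_left a2 (norm_nonneg _)).trans_lt n3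
  have kF := (ker_iff F1).2 (not_le.1 fun q => (mul_lt_one_of_nonneg_of_lt_one_right q zero_le'
    (pow_lt_one₀ zero_le' (l.trans_le (natCast_mem (nv ℂ_[2]).integer 2)) two_ne_zero)).ne w1)
  have z : nv ℂ_[2] (zf (pa ι.toRatAlgHom (φ Y))) = nv ℂ_[2] c * nv ℂ_[2] (zf (p' Y)) :=
    sq_one (mul_left_cancel₀ (left_ne_zero_of_mul_eq_one w1)
      ((xz (cfs _ A B) kF F1).trans w1.symm))
  rw [hL.norm (cfs _ A B) kF (z.trans_lt l), hL'.norm (cfs _ A' B') a1 (a2.trans_lt n2)]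
  exact congrArg NNReal.toReal z

/-- the same with one constant -/
theorem lg_lam (e : ∀ g y, φ (ga g y) = ga g (φ y)) {P : Ideal (𝓞 Qb)} {ι : Qb →+* ℂ_[2]}
    (hι : Ind ι P) {lg : Fx A B (dec P) →+ K} {lg' : Fx A' B' (dec P) →+ K} (k : Lk ι lg)
    (k' : Lk ι lg') : ∃ a : K, ‖a‖ = ‖(c : K)‖ ∧ ∀ (y' : Fx A' B' (dec P)) (y : Fx A B (dec P)),
      y.1 = φ y'.1 → lg y = a * lg' y' := by
  let f : Fx A' B' (dec P) →+ Fx A B (dec P) := (φ.comp (AddSubgroup.subtype _)).codRestrict _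
    fun y g m => (e g y).symm.trans (congrArg φ (y.2 g m))
  obtain ⟨a, p, q⟩ := ex_lam (l := lg.comp f) fun y =>
    lg_iso h h2 h3 h' h2' h3' hc i hι k k' y (f y) rfl
  exact ⟨a, p, fun y' y m => (congrArg lg (Subtype.ext m)).trans (q y')⟩

end Vale.Agent.P014T.La
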