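import Vale.Agent.P014T.Pq.All

/-!
# P014T, block LAT: framed cocycles of a general module, the Euler characteristic inequality
-/

set_option autoImplicit false
set_option linter.all false

noncomputable section

namespace Vale.Agent.P014T.La

open NumberField Module Cardinal
open Vale.Agent.P022 Vale.Agent.P022K Vale.Agent.P022K.G2
open Vale.Agent.P022K.G2.Hb
open Vale.Agent.P022D.W (dec)
open Vale.Agent.P022E.GW (Ov)
open Vale.Agent.P004F.Pr (F2 Iu ac Bk fin_of)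
open Vale.Agent.P014T.Pq (Gd Zs Zq res_cnt zq_iff zs_fin wt_ip)
open scoped Classical Matrix

section chi

variable {X Y Z : Type} [AddCommGroup X] [AddCommGroup Y] [AddCommGroup Z]

/-- the order of the kernel -/
def kc (f : X →+ Y) : ℕ := Nat.card f.ker

/-- the order of the cokernel -/
def cc (f : X →+ Y) : ℕ := f.range.index

theorem card_comap (f : X →+ Y) (H : AddSubgroup Y) :
    Nat.card (H.comap f) = kc f * Nat.card (H ⊓ f.range : AddSubgroup Y) := by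
  have e := (f.ker.addSubgroupOf (H.comap f)).card_mul_index
  have le : f.ker ≤ H.comap f := fun x hx => by
    rw [AddSubgroup.mem_comap, show f x = 0 from hx]; exact zero_mem _
  rw [Nat.card_congr (AddSubgroup.addSubgroupOfEquivOfLe le).toEquiv] at e
  rw [← e, inf_comm, ← AddSubgroup.map_comap_eq, ← AddSubgroup.relIndex_ker]
  rfl

/-- **the six term sequence** -/
theorem six (f : X →+ Y) (g : Y →+ Z) :
    kc f * kc g * cc (g.comp f) = kc (g.comp f) * cc f * cc g := by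
  have e1 : kc (g.comp f) = kc f * Nat.card (g.ker ⊓ f.range : AddSubgroup Y) := card_comap f g.ker
  have e2 : kc g = Nat.card (g.ker ⊓ f.range : AddSubgroup Y) * f.range.relIndex g.ker := by
    rw [kc, ← (f.range.addSubgroupOf g.ker).card_mul_index, ← AddSubgroup.inf_addSubgroupOf_left,
      Nat.card_congr (AddSubgroup.addSubgroupOfEquivOfLe inf_le_left).toEquiv,
      AddSubgroup.inf_addSubgroupOf_left]
    rfl
  have e3 : cc f = f.range.relIndex g.ker * (f.range ⊔ g.ker).index := by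
    rw [cc, ← AddSubgroup.relIndex_mul_index (le_sup_left : f.range ≤ f.range ⊔ g.ker),
      AddSubgroup.relIndex_sup_left]
  have e4 : cc (g.comp f) = (f.range ⊔ g.ker).index * cc g := by
    rw [cc, ← AddMonoidHom.map_range, AddSubgroup.index_map]; rfl
  rw [e1, e2, e3, e4]
  ring

theorem kc_comp {f : X →+ Y} {g : Y →+ Z} (a : kc f ≠ 0) (b : kc g ≠ 0) : kc (g.comp f) ≠ 0 := by
  have := Nat.finite_of_card_ne_zero b
  have : Finite (g.ker ⊓ f.range : AddSubgroup Y) :=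
    Finite.of_injective _ (AddSubgroup.inclusion_injective inf_le_left)
  exact (card_comap f g.ker).trans_ne (mul_ne_zero a Nat.card_pos.ne')

/-- finite kernel and cokernel, the quotient of the orders is at least `a` -/
structure Ge (f : X →+ Y) (a : ℕ) : Prop where
  c : cc f ≠ 0
  k : kc f ≠ 0
  le : a * cc f ≤ kc f

/-- finite kernel and cokernel, the quotient of the orders is at most `a` -/
structure Lq (f : X →+ Y) (a : ℕ) : Prop where
  c : cc f ≠ 0
  k : kc f ≠ 0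
  le : kc f ≤ a * cc f

theorem cc_comp {f : X →+ Y} {g : Y →+ Z} (a : cc f ≠ 0) (b : cc g ≠ 0) (a' : kc f ≠ 0)
    (b' : kc g ≠ 0) : cc (g.comp f) ≠ 0 := fun e => by
  have := six f g
  rw [e, mul_zero] at this
  exact mul_ne_zero (mul_ne_zero (kc_comp a' b') a) b this.symm

theorem Ge.comp {f : X →+ Y} {g : Y →+ Z} {a b : ℕ} (u : Ge f a) (v : Ge g b) :
    Ge (g.comp f) (a * b) :=
  ⟨cc_comp u.c v.c u.k v.k, kc_comp u.k v.k,
    Nat.le_of_mul_le_mul_right (c := cc f * cc g) (by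
      calc _ = a * cc f * (b * cc g) * cc (g.comp f) := by ring
        _ ≤ _ := Nat.mul_le_mul_right _ (Nat.mul_le_mul u.le v.le)
        _ = _ := by rw [six, mul_assoc]) (Nat.pos_of_ne_zero (mul_ne_zero u.c v.c))⟩

theorem Lq.comp {f : X →+ Y} {g : Y →+ Z} {a b : ℕ} (u : Lq f a) (v : Lq g b) :
    Lq (g.comp f) (a * b) :=
  ⟨cc_comp u.c v.c u.k v.k, kc_comp u.k v.k,
    Nat.le_of_mul_le_mul_right (c := cc f * cc g) (by
      calc _ = kc f * kc g * cc (g.comp f) := by rw [six, mul_assoc]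
        _ ≤ _ := Nat.mul_le_mul_right _ (Nat.mul_le_mul u.le v.le)
        _ = _ := by ring) (Nat.pos_of_ne_zero (mul_ne_zero u.c v.c))⟩

/-- the loop -/
theorem loop {f : X →+ Y} {g : Y →+ Z} {a b : ℕ} (u : Ge f a) (v : Ge g b)
    (w : Lq (g.comp f) (a * b)) : kc f = a * cc f ∧ kc g = b * cc g := by
  have : kc f * kc g ≤ a * cc f * (b * cc g) :=
    Nat.le_of_mul_le_mul_right (c := cc (g.comp f)) (by
      calc _ = kc (g.comp f) * (cc f * cc g) := by rw [six, mul_assoc]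
        _ ≤ _ := Nat.mul_le_mul_right _ w.le
        _ = _ := by ring) (Nat.pos_of_ne_zero w.c)
  exact ⟨le_antisymm (Nat.le_of_mul_le_mul_right (this.trans (Nat.mul_le_mul_left _ v.le))
    (Nat.pos_of_ne_zero v.k)) u.le, le_antisymm (Nat.le_of_mul_le_mul_left
      (this.trans (Nat.mul_le_mul_right _ u.le)) (Nat.pos_of_ne_zero u.k)) v.le⟩

theorem index_le {α : Type} [Finite α] (H : AddSubgroup X) (f : X → α)
    (h : ∀ x y, f x = f y → x - y ∈ H) : H.index ≠ 0 ∧ H.index ≤ Nat.card α := by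
  have i : Function.Injective fun q : X ⧸ H => f q.out := fun q q' e => by
    rw [← q.out_eq', ← q'.out_eq', QuotientAddGroup.eq_iff_sub_mem]
    exact h _ _ e
  have := Finite.of_injective _ i
  exact ⟨Nat.card_pos.ne', Nat.card_le_card_of_injective _ i⟩

/-- killed by a power of two -/
def Tw (x : X) : Prop := ∃ j : ℕ, 2 ^ j • x = 0

theorem Tw.zero : Tw (0 : X) := ⟨0, nsmul_zero _⟩

theorem Tw.add {x y : X} : Tw x → Tw y → Tw (x + y) := fun ⟨k, a⟩ ⟨j, b⟩ => ⟨k + j, by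
  rw [nsmul_add, pow_add, mul_nsmul, mul_nsmul', a, b, nsmul_zero, nsmul_zero, add_zero]⟩

theorem Tw.map {x : X} (f : X →+ Y) : Tw x → Tw (f x) := fun ⟨k, a⟩ =>
  ⟨k, by rw [← map_nsmul, a, map_zero]⟩

theorem Tw.sub {x y : X} (a : Tw x) (b : Tw y) : Tw (x - y) := by
  rw [sub_eq_add_neg]; exact a.add (b.map (negAddMonoidHom : X →+ X))

theorem Tw.of_two {x : X} (h : 2 • x = 0) : Tw x := ⟨1, by rwa [pow_one]⟩

theorem Tw.of_smul {x : X} {j : ℕ} : Tw (2 ^ j • x) → Tw x := fun ⟨k, a⟩ =>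
  ⟨j + k, by rwa [pow_add, mul_nsmul]⟩

theorem Tw.nsmul {x : X} (h : Tw x) (m : ℕ) : Tw (m • x) := h.map (nsmulAddMonoidHom m)

theorem Tw.inv {x : X} {m : ℕ} (o : Odd m) : Tw x → ∃ a : ℕ, m • a • x = x := fun ⟨j, h⟩ => by
  obtain ⟨t, e⟩ := Nat.exists_eq_succ_of_ne_zero (Nat.totient_pos.2 (Nat.two_pow_pos j)).ne'
  have := (Nat.ModEq.pow_totient ((Nat.coprime_two_right.2 o).pow_right j)).of_dvd
    (addOrderOf_dvd_of_nsmul_eq_zero h)
  refine ⟨m ^ t, ?_⟩
  rw [← mul_nsmul', ← pow_succ', ← Nat.succ_eq_add_one, ← e, nsmul_eq_nsmul_iff_modEq.2 this, one_nsmul]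

theorem tw_fin {s : Set X} (f : s.Finite) (h : ∀ x ∈ s, Tw x) : ∃ j, ∀ x ∈ s, 2 ^ j • x = 0 := by
  choose! j hj using h
  obtain ⟨N, hN⟩ := (f.image j).bddAbove
  refine ⟨N, fun x hx => ?_⟩
  obtain ⟨d, e⟩ := Nat.exists_eq_add_of_le (hN ⟨x, hx, rfl⟩)
  rw [e, pow_add, mul_nsmul, hj x hx, nsmul_zero]

end chi

variable {X Y Z : Type} [AddCommGroup X] [AddCommGroup Y] [AddCommGroup Z]

/-- a discrete module whose points of order a power of two are unramified outside `T` -/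
structure Gm (ρ : GQ → X →+ X) (T : Finset ℕ) : Prop where
  one : ∀ x, ρ 1 x = x
  mul : ∀ g h x, ρ (g * h) x = ρ g (ρ h x)
  lc : ∀ x, ∀ᶠ g in nhds 1, ρ g x = x
  unr : ∀ x, Tw x → ∀ g ∈ In T, ρ g x = x

/-- framed cocycles: unramified outside `T`, zero at `k` -/
def Zf (ρ : GQ → X →+ X) (T : Finset ℕ) (k : GQ) : AddSubgroup (GQ → X) where
  carrier := {x | IsLocallyConstant x ∧ (∀ g h, x (g * h) = x g + ρ g (x h)) ∧
    (∃ j : ℕ, ∀ g, 2 ^ j • x g = 0) ∧ (∀ g ∈ In T, x g = 0) ∧ x k = 0}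
  zero_mem' := ⟨IsLocallyConstant.const 0, fun _ _ => by simp, ⟨0, fun _ => nsmul_zero _⟩,
    fun _ _ => rfl, rfl⟩
  add_mem' := fun ⟨a1, a2, ⟨k, a⟩, a4, a5⟩ ⟨b1, b2, ⟨j, b⟩, b4, b5⟩ => ⟨a1.add b1, fun g h => by
    simp only [Pi.add_apply, a2, b2, map_add]; abel, ⟨k + j, fun g => by
    rw [Pi.add_apply, nsmul_add, pow_add, mul_nsmul, mul_nsmul', a, b, nsmul_zero,
      nsmul_zero, add_zero]⟩, fun g hg => by rw [Pi.add_apply, a4 g hg, b4 g hg, add_zero],
    by rw [Pi.add_apply, a5, b5, add_zero]⟩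
  neg_mem' := fun ⟨a1, a2, ⟨k, a⟩, a4, a5⟩ => ⟨a1.neg, fun g h => by
    simp only [Pi.neg_apply, a2, map_neg]; abel, ⟨k, fun g => by
    rw [Pi.neg_apply, neg_nsmul, a, neg_zero]⟩, fun g hg => by rw [Pi.neg_apply, a4 g hg, neg_zero],
    by rw [Pi.neg_apply, a5, neg_zero]⟩

variable {ρ' : GQ → X →+ X} {ρ : GQ → Y →+ Y} {ρ₀ : GQ → Z →+ Z} {T : Finset ℕ} {k : GQ}

variable (T k) in
/-- the map on the framed cocycles -/
def zm (π : X →+ Y) (e : ∀ g x, π (ρ' g x) = ρ g (π x)) : Zf ρ' T k →+ Zf ρ T k where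
  toFun x := ⟨fun g => π (x.1 g), x.2.1.comp π, fun g h => by
      beta_reduce; rw [x.2.2.1, map_add, e],
    x.2.2.2.1.imp fun j a g => by rw [← map_nsmul, a, map_zero],
    fun g hg => (congrArg π (x.2.2.2.2.1 g hg)).trans (map_zero π),
    (congrArg π x.2.2.2.2.2).trans (map_zero π)⟩
  map_zero' := Subtype.ext (funext fun _ => map_zero π)
  map_add' x y := Subtype.ext (funext fun _ => map_add π _ _)

theorem zm_apply (π : X →+ Y) (e : ∀ g x, π (ρ' g x) = ρ g (π x)) (x : Zf ρ' T k) (g : GQ) :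
    (zm T k π e x).1 g = π (x.1 g) := rfl

theorem coc_one {x : GQ → X} (c : ∀ g h, x (g * h) = x g + ρ' g (x h)) (o : ρ' 1 (x 1) = x 1) :
    x 1 = 0 := by
  have := c 1 1
  rwa [mul_one, o, left_eq_add] at this

/-- a cocycle which vanishes on an open subgroup is locally constant -/
theorem lc_of {x : GQ → X} (c : ∀ g h, x (g * h) = x g + ρ' g (x h)) {W : Subgroup GQ}
    (o : IsOpen (W : Set GQ)) (w : ∀ u ∈ W, x u = 0) : IsLocallyConstant x :=
  (IsLocallyConstant.iff_eventually_eq _).2 fun g => by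
    filter_upwards [(o.preimage (continuous_const_mul g⁻¹)).mem_nhds
      (show g⁻¹ * g ∈ W by rw [inv_mul_cancel]; exact one_mem W)] with h m
    rw [← mul_inv_cancel_left g h, c, w _ m, map_zero, add_zero]

/-- a level for a framed cocycle and a lift of its values -/
theorem lev (hX : Gm ρ' T) {x : GQ → Y} (hx : x ∈ Zf ρ T k) (x1 : x 1 = 0) (s : Y → X)
    (t : ∀ g, Tw (s (x g))) : ∃ V, Lv (In T) V ∧ ∀ w ∈ V, x w = 0 ∧
      ∀ h, ρ' w (s (x h)) = s (x h) := by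
  have := G2.cpt
  let H : Subgroup GQ :=
    { carrier := {w | x w = 0 ∧ ∀ h, ρ' w (s (x h)) = s (x h)}
      one_mem' := ⟨x1, fun _ => hX.one _⟩
      mul_mem' := fun {a b} ha hb => ⟨by rw [hx.2.1, ha.1, hb.1, map_zero, add_zero],
        fun h => by rw [hX.mul, hb.2, ha.2]⟩
      inv_mem' := fun {a} ha => ⟨by
        have := hx.2.1 a⁻¹ a
        rwa [inv_mul_cancel, x1, ha.1, map_zero, add_zero, eq_comm] at this, fun h => by
          rw [← ha.2 h, ← hX.mul, inv_mul_cancel, hX.one, ha.2]⟩ }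
  have o : IsOpen (H : Set GQ) := H.isOpen_of_mem_nhds (g := 1) (by
    filter_upwards [hx.1.eventually_eq 1, (Filter.eventually_all_finite hx.1.range_finite).2
      fun y _ => hX.lc (s y)] with g a b
    exact ⟨a.trans x1, fun h => b _ ⟨h, rfl⟩⟩)
  exact ⟨_, lv_core o fun g hg => ⟨hx.2.2.2.1 g hg, fun h => hX.unr _ (t h) g hg⟩,
    fun w hw => H.normalCore_le hw⟩

/-- an odd prime of `T` whose decomposition group fixes the set `s` -/
def Rl (ρ : GQ → X →+ X) (T : Finset ℕ) (s : Set X) : Prop :=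
  ∃ l ∈ T, l ≠ 2 ∧ ∃ Q, Ov l Q ∧ ∀ g ∈ dec Q, ∀ x ∈ s, ρ g x = x

theorem Rl.mono {s t : Set X} (h : Rl ρ' T t) (le : s ⊆ t) : Rl ρ' T s :=
  let ⟨l, a, b, Q, c, d⟩ := h
  ⟨l, a, b, Q, c, fun g m x hx => d g m x (le hx)⟩

/-- **the inequality for a kernel which is killed by two** -/
theorem base {n : Type} [Fintype n] [DecidableEq n] (c2 : Fintype.card n ≤ 2) (hX : Gm ρ' T)
    (pr : ∀ l ∈ T, l.Prime) (h2 : 2 ∈ T) (hk : IsConj k) (π : X →+ Y)
    (e : ∀ g x, π (ρ' g x) = ρ g (π x)) (sj : ∀ y, Tw y → ∃ x, Tw x ∧ π x = y)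
    (ι : (n → F2) →+ X) (inj : Function.Injective ι) (k0 : ∀ v, π (ι v) = 0)
    (k1 : ∀ x, Tw x → π x = 0 → ∃ v, ι v = x) (rl : Rl ρ' T (Set.range ι)) :
    Ge (zm T k π e) (2 ^ Fintype.card n) := by
  have := G2.cpt
  obtain ⟨φ, hk⟩ := hk
  have i2 : ∀ v, 2 • ι v = 0 := fun v => by
    rw [← map_nsmul, ← Nat.cast_smul_eq_nsmul F2, show ((2 : ℕ) : F2) = 0 from rfl, zero_smul,
      map_zero]
  have it : ∀ v, Tw (ι v) := fun v => .of_two (i2 v)
  let τ := Function.invFun ι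
  have hτ : ∀ x, Tw x → π x = 0 → ι (τ x) = x := fun x a b => Function.invFun_eq (k1 x a b)
  have τ0 : τ 0 = 0 := inj ((hτ 0 .zero (map_zero π)).trans (map_zero ι).symm)
  have hL : ∀ g v, ι (τ (ρ' g (ι v))) = ρ' g (ι v) := fun g v =>
    hτ _ ((it v).map _) (by rw [e, k0, map_zero])
  let L : GQ → (n → F2) →+ (n → F2) := fun g => .mk' (fun v => τ (ρ' g (ι v))) fun v w =>
    inj (by rw [hL, map_add, map_add, map_add, hL, hL])
  let a : GQ → Matrix n n F2 := fun g => LinearMap.toMatrix' ((L g).toZModLinearMap 2)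
  have ha : ∀ g v, ι (a g *ᵥ v) = ρ' g (ι v) := fun g v => by
    rw [← Matrix.toLin'_apply, Matrix.toLin'_toMatrix']
    exact hL g v
  have ex : ∀ {p q : Matrix n n F2}, (∀ v, ι (p *ᵥ v) = ι (q *ᵥ v)) → p = q := fun h =>
    Matrix.toLin'.injective (LinearMap.ext fun v => inj (h v))
  have a1 : ∀ g, (∀ v, ρ' g (ι v) = ι v) → a g = 1 := fun g h =>
    ex fun v => by rw [ha, h, Matrix.one_mulVec]
  have gd : Gd ⊤ T a := by
    let H : Subgroup GQ :=
      { carrier := {w | ∀ v, ρ' w (ι v) = ι v}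
        one_mem' := fun _ => hX.one _
        mul_mem' := fun ha hb h => by rw [hX.mul, hb, ha]
        inv_mem' := fun {a} ha h => by rw [← ha h, ← hX.mul, inv_mul_cancel, hX.one, ha] }
    exact ⟨isOpen_univ, inferInstance, pr, a1 1 fun _ => hX.one _, fun g _ h _ => ex fun v => by
      rw [← Matrix.mulVec_mulVec, ha, ha, ha, hX.mul], ⟨H, H.isOpen_of_mem_nhds (g := 1)
        (Filter.eventually_all.2 fun v => hX.lc (ι v)), fun w _ m => a1 w m⟩,
      fun g _ m => a1 g fun v => hX.unr _ (it v) g m⟩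
  have k2 := res_cnt (y := fun _ : Unit => ip (InfinitePlace.mk φ))
    (b := fun _ _ => (0 : Matrix n Empty F2)) c2 gd h2
    (fun _ => mem_ab_ip.2 (Set.mem_insert _ _)) (fun _ _ _ _ => rfl) ⟨(), _, rfl⟩
    (fun _ _ _ _ _ => Subsingleton.elim _ _) (fun _ => ⟨⊤, isOpen_univ, fun _ _ _ _ _ => rfl⟩)
    (.inr (let ⟨l, a, b, Q, c, d⟩ := rl;
      ⟨l, a, b, Q, c, fun g m => a1 g fun v => d g m _ ⟨v, rfl⟩, fun _ _ => Sum.inl_ne_inr⟩))
  have fz := zs_fin (P := fun _ : Unit => St (ip (InfinitePlace.mk φ)))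
    (b := fun _ _ => (0 : Matrix n Empty F2)) gd
  have dm : ∀ g, g ∈ St (ip (InfinitePlace.mk φ)) ↔ g = 1 ∨ g = k := fun g =>
    Set.ext_iff.1 (st_conj hk) g
  have kz : Nat.card (Zs F2 ⊤ T a (fun _ : Unit => St (ip (InfinitePlace.mk φ)))
      fun _ _ => (0 : Matrix n Empty F2)) = kc (zm T k π e) := by
    refine Nat.card_eq_of_bijective (fun c => ⟨⟨fun g => ι (c.1.1 g), ?_⟩,
      Subtype.ext (funext fun g => k0 _)⟩) ⟨fun c c' h => Subtype.ext (Prod.ext
        (funext fun g => inj (congrFun (congrArg (·.1.1) h) g)) (Subsingleton.elim _ _)),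
      fun x => ?_⟩
    · obtain ⟨h1, ⟨W, o, w⟩, h3, h4⟩ := (zq_iff hk _).1 c.2
      have co : ∀ g h, ι (c.1.1 (g * h)) = ι (c.1.1 g) + ρ' g (ι (c.1.1 h)) := fun g h => by
        rw [h1, map_add, ← ha]; rfl
      exact ⟨lc_of co o fun u m => by rw [w u m, map_zero], co, ⟨1, fun g => by rw [pow_one, i2]⟩,
        fun g m => (congrArg ι (h3 g m)).trans (map_zero ι), (congrArg ι h4).trans (map_zero ι)⟩
    · have t : ∀ g, Tw (x.1.1 g) := fun g => x.1.2.2.2.1.imp fun _ h => h g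
      have u : ∀ g, ι (τ (x.1.1 g)) = x.1.1 g := fun g =>
        hτ _ (t g) (congrFun (congrArg (·.1) x.2) g)
      obtain ⟨V, hV, v⟩ := lev hX x.1.2 (coc_one x.1.2.2.1 (hX.one _)) id t
      exact ⟨⟨(fun g => τ (x.1.1 g), 0), (zq_iff hk _).2 ⟨fun g h => inj (by
        rw [map_add, u, u, x.1.2.2.1, ← u h, ← ha]; rfl), ⟨V, hV.opn, fun w m =>
          (congrArg τ (v w m).1).trans τ0⟩, fun g m => (congrArg τ (x.1.2.2.2.2.1 g m)).trans τ0,
          (congrArg τ x.1.2.2.2.2.2).trans τ0⟩⟩,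
        Subtype.ext (Subtype.ext (funext u))⟩
  obtain ⟨s, s0, hs⟩ : ∃ s : Y → X, s 0 = 0 ∧ ∀ y, Tw y → Tw (s y) ∧ π (s y) = y := by
    choose! s hs using sj
    refine ⟨fun y => if y = 0 then 0 else s y, if_pos rfl, fun y t => ?_⟩
    beta_reduce
    split_ifs with c
    exacts [⟨.zero, by rw [c, map_zero]⟩, hs y t]
  have xt : ∀ (x : Zf ρ T k) g, Tw (x.1 g) := fun x g => x.2.2.2.1.imp fun _ h => h g
  have x1 : ∀ x : Zf ρ T k, x.1 1 = 0 := fun x => coc_one x.2.2.1 (by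
    rw [← (hs _ (xt x 1)).2, ← e, hX.one])
  have xd : ∀ x : Zf ρ T k, ∀ g ∈ St (ip (InfinitePlace.mk φ)), x.1 g = 0 := fun x g m => by
    obtain rfl | rfl := (dm g).1 m
    exacts [x1 x, x.2.2.2.2.2]
  let O : Zf ρ T k → GQ → GQ → X := fun x g h =>
    ρ' g (s (x.1 h)) - s (x.1 (g * h)) + s (x.1 g)
  have hO : ∀ x g h, ι (τ (O x g h)) = O x g h := fun x g h => hτ _
    ((((hs _ (xt x h)).1.map _).sub (hs _ (xt x _)).1).add (hs _ (xt x g)).1) (by
      simp only [O, map_add, map_sub, e, (hs _ (xt x _)).2]; rw [x.2.2.1]; abel)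
  set Zz := Zc (Iu ⊤ T) ⊤ (fun _ : Unit => ⊤ ⊓ St (ip (InfinitePlace.mk φ)))
    fun g => (a g).mulVecLin
  set Bz := Bk (Iu ⊤ T) ⊤ (fun _ : Unit => ⊤ ⊓ St (ip (InfinitePlace.mk φ)))
    (fun g => (a g).mulVecLin) fun _ _ => (0 : Matrix n Empty F2).mulVecLin
  have ob : ∀ x, ((fun g h => τ (O x g h)), 0) ∈ Zz := fun x => by
    obtain ⟨V, hV, v⟩ := lev hX x.2 (x1 x) s fun g => (hs _ (xt x g)).1
    have xv : ∀ g, ∀ w ∈ V, x.1 (g * w) = x.1 g := fun g w m => by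
      rw [x.2.2.1, (v w m).1, map_zero, add_zero]
    refine ⟨⟨fun g _ h _ j _ => inj ?_, V, hV.mono fun _ m => m.2, fun g _ h _ w _ m => ⟨?_, ?_⟩⟩,
      fun _ => ⟨zero_mem _, fun g hg h hh => ?_⟩⟩
    · simp only [map_add, Matrix.mulVecLin_apply, ha, hO]
      simp only [O, map_add, map_sub, hX.mul, mul_assoc]
      abel
    · have e : g * w * h = g * h * (h⁻¹ * w * h⁻¹⁻¹) := by group
      simp only [O]
      rw [hX.mul, (v w m).2, xv g w m, e, xv _ _ (hV.nrm.conj_mem w m h⁻¹)]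
    · simp only [O]
      rw [xv h w m, ← mul_assoc, xv _ w m]
    · simp only [O, xd x g hg.2, xd x h hh.2, xd x _ (mul_mem hg.2 hh.2), s0, map_zero, sub_zero,
        add_zero, τ0]
      simp [d1_apply]
  have := Module.Finite.of_finite (R := F2) (M := Zs F2 ⊤ T a
    (fun _ : Unit => St (ip (InfinitePlace.mk φ))) fun _ _ => (0 : Matrix n Empty F2))
  rw [rk, ← finrank_eq_rank] at k2
  rw [Module.natCard_eq_pow_finrank (K := F2), Nat.card_zmod] at kz
  generalize finrank F2 (Zs F2 ⊤ T a (fun _ : Unit => St (ip (InfinitePlace.mk φ)))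
    fun _ _ => (0 : Matrix n Empty F2)) = d at k2 kz
  simp only [wt_ip, Finset.sum_const_zero, Nat.cast_zero, zero_mul, add_zero, Fintype.card_empty]
    at k2
  obtain ⟨r, hr⟩ := Cardinal.lt_aleph0.1 ((self_le_add_right _ _).trans_lt
    (k2.trans_lt natCast_lt_aleph0))
  rw [hr] at k2
  obtain ⟨f1, f2⟩ := fin_of (X := Zz.map Bz.mkQ) (m := r) hr.le
  refine (index_le (α := Zz.map Bz.mkQ) (zm T k π e).range
    (fun x => ⟨_, _, ob x, rfl⟩) fun x y h => ?_).elim fun c1 c3 => ?_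
  swap
  · refine ⟨c1, kz ▸ pow_ne_zero _ two_ne_zero, ?_⟩
    rw [← kz]
    refine (Nat.mul_le_mul_left _ (c3.trans f2)).trans ?_
    rw [← pow_add, add_comm]
    exact Nat.pow_le_pow_right two_pos (by exact_mod_cast k2)
  obtain ⟨c, ⟨W, hW, w⟩, l, e1, e2⟩ := (Submodule.Quotient.eq _).1 (congrArg (·.1) h)
  have cd : ∀ g ∈ St (ip (InfinitePlace.mk φ)), c g = 0 := fun g m => by
    simpa using (e2 () g ⟨trivial, m⟩).symm
  obtain ⟨V, hV, v⟩ := lev hX x.2 (x1 x) s fun g => (hs _ (xt x g)).1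
  obtain ⟨V', hV', v'⟩ := lev hX y.2 (x1 y) s fun g => (hs _ (xt y g)).1
  let z : GQ → X := fun g => s (x.1 g) - s (y.1 g) - ι (c g)
  have co : ∀ g h, z (g * h) = z g + ρ' g (z h) := fun g h => by
    have := congrArg ι (e1 g trivial h trivial)
    simp only [Prod.fst_sub, Pi.sub_apply, d1_apply, map_add, map_sub, Matrix.mulVecLin_apply, ha,
      hO] at this
    simp only [z, O, map_sub] at this ⊢
    linear_combination (norm := abel1) -this
  have z0 : ∀ u, u ∈ V → u ∈ V' → u ∈ W → z u = 0 := fun u m m' m'' => by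
    simp only [z]
    rw [(v u m).1, (v' u m').1, ← one_mul u, w 1 trivial u trivial m'', cd 1 (one_mem _), map_zero,
      sub_self, sub_self]
  have lc := lc_of co (W := V ⊓ V' ⊓ W) ((hV.opn.inter hV'.opn).inter hW.opn)
    fun u m => z0 u m.1.1 m.1.2 m.2
  refine ⟨⟨z, lc, co, (tw_fin lc.range_finite ?_).imp fun j hj g => hj _ ⟨g, rfl⟩,
    fun g m => z0 g (hV.sub m) (hV'.sub m) (hW.sub ⟨trivial, m⟩), ?_⟩,
    Subtype.ext (funext fun g => ?_)⟩
  · rintro _ ⟨g, rfl⟩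
    exact ((hs _ (xt x g)).1.sub (hs _ (xt y g)).1).sub (it _)
  · simp only [z]
    rw [x.2.2.2.2.2, y.2.2.2.2.2, cd k ((dm k).2 (.inr rfl)), map_zero, sub_self, sub_self]
  · simp only [zm_apply, z, map_sub, k0, (hs _ (xt _ g)).2, sub_zero]
    rfl

end Vale.Agent.P014T.La
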